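import Mathlib

/-! Sets of integers that avoid one nonzero digit (helper175, row AVOID of P057.DigitStatistics). -/

set_option autoImplicit false

namespace Vale.Agent.P057.R3.H175

open Finset

/-- no digit of `n` is `v` -/
def NoDigit (B v n : ℕ) : Prop := ∀ i : ℕ, n / B ^ i % B ≠ v

open Classical in
/-- the numbers below `B ^ T` without the digit `v` -/
noncomputable def FT (B v T : ℕ) : Finset ℕ := (range (B ^ T)).filter (NoDigit B v)

theorem card_FT {B v : ℕ} (hB : 2 ≤ B) (hv : v < B) (T : ℕ) :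
    (FT B v T).card ≤ (B - 1) ^ T := by
  classical
  induction T with
  | zero =>
    have : (FT B v 0).card ≤ (range (B ^ 0)).card := card_le_card (filter_subset _ _)
    simpa using this
  | succ T ih =>
    have h1 : (FT B v (T + 1)).card ≤ (((range B).erase v) ×ˢ FT B v T).card := by
      refine card_le_card_of_injOn (fun n => (n % B, n / B)) ?_ ?_
      · intro n hn
        have hn' := mem_filter.1 hn
        have hlt : n < B ^ (T + 1) := mem_range.1 hn'.1
        have hgood : NoDigit B v n := hn'.2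
        have h0 := hgood 0
        rw [pow_zero, Nat.div_one] at h0
        refine mem_coe.2 (mem_product.2 ⟨?_, ?_⟩)
        · exact mem_erase.2 ⟨h0, mem_range.2 (Nat.mod_lt _ (by omega))⟩
        · refine mem_filter.2 ⟨mem_range.2 ?_, ?_⟩
          · exact Nat.div_lt_of_lt_mul (by rw [pow_succ, mul_comm] at hlt; exact hlt)
          · intro i
            have h2 := hgood (i + 1)
            rw [pow_succ, mul_comm, ← Nat.div_div_eq_div_mul] at h2
            exact h2
      · intro n _ m _ hnm
        have h3 : n % B = m % B := congrArg Prod.fst hnm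
        have h4 : n / B = m / B := congrArg Prod.snd hnm
        rw [← Nat.div_add_mod n B, ← Nat.div_add_mod m B, h3, h4]
    refine h1.trans ?_
    rw [card_product, card_erase_of_mem (mem_range.2 hv), card_range, pow_succ, mul_comm]
    exact Nat.mul_le_mul_right _ ih

theorem avoid {B v : ℕ} (hB : 2 ≤ B) (hv0 : 0 < v) (hv : v < B) :
    ∃ θ C : ℝ, 0 < θ ∧ θ < 1 ∧ 0 < C ∧ ∀ A : Set ℕ,
      (∀ n ∈ A, ∀ i : ℕ, n / B ^ i % B ≠ v) →
      (∀ N : ℕ, 1 ≤ N → ((A ∩ Set.Iic N).ncard : ℝ) ≤ C * (N : ℝ) ^ θ) ∧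
      Summable (fun n : A => 1 / ((n : ℕ) : ℝ)) := by
  classical
  have hB2 : (2 : ℝ) ≤ B := by exact_mod_cast hB
  have hB0 : (0 : ℝ) < B := by linarith
  have hlogB : 0 < Real.log B := Real.log_pos (by linarith)
  have hB1 : ((B - 1 : ℕ) : ℝ) = (B : ℝ) - 1 := by
    rw [Nat.cast_sub (by omega)]
    norm_num
  set θ : ℝ := max (Real.log ((B : ℝ) - 1) / Real.log B) (1 / 2) with hθ
  have hθ0 : 0 < θ := lt_of_lt_of_le (by norm_num) (le_max_right _ _)
  have hθ1 : θ < 1 := by
    refine max_lt ?_ (by norm_num)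
    rw [div_lt_one hlogB]
    exact Real.log_lt_log (by linarith) (by linarith)
  have hBθ : (B : ℝ) - 1 ≤ (B : ℝ) ^ θ := by
    rw [← Real.log_le_log_iff (by linarith) (by positivity), Real.log_rpow hB0]
    have h1 : Real.log ((B : ℝ) - 1) / Real.log B ≤ θ := le_max_left _ _
    rwa [div_le_iff₀ hlogB] at h1
  refine ⟨θ, (B : ℝ) ^ θ, hθ0, hθ1, by positivity, fun A hA => ⟨fun N hN => ?_, ?_⟩⟩
  · set T := Nat.log B N + 1 with hT
    have h1 : N < B ^ T := Nat.lt_pow_succ_log_self (by omega) N
    have h2 : B ^ (T - 1) ≤ N := Nat.pow_log_le_self B (by omega)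
    have h3 : (A ∩ Set.Iic N).ncard ≤ (FT B v T).card := by
      rw [← Set.ncard_coe_finset]
      refine Set.ncard_le_ncard ?_ (Finset.finite_toSet _)
      intro n hn
      refine mem_coe.2 (mem_filter.2 ⟨mem_range.2 ?_, hA n hn.1⟩)
      exact lt_of_le_of_lt hn.2 h1
    have h4 : ((A ∩ Set.Iic N).ncard : ℝ) ≤ ((B : ℝ) - 1) ^ T := by
      calc ((A ∩ Set.Iic N).ncard : ℝ) ≤ ((FT B v T).card : ℝ) := by exact_mod_cast h3
        _ ≤ (((B - 1) ^ T : ℕ) : ℝ) := by exact_mod_cast card_FT hB hv T
        _ = ((B : ℝ) - 1) ^ T := by rw [Nat.cast_pow, hB1]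
    refine h4.trans ?_
    calc ((B : ℝ) - 1) ^ T ≤ ((B : ℝ) ^ θ) ^ T := pow_le_pow_left₀ (by linarith) hBθ T
      _ = (((B : ℝ) ^ T)) ^ θ := by
          rw [← Real.rpow_natCast ((B : ℝ) ^ θ) T, ← Real.rpow_mul hB0.le, mul_comm,
            Real.rpow_mul hB0.le, Real.rpow_natCast]
      _ ≤ ((B : ℝ) * N) ^ θ := by
          refine Real.rpow_le_rpow (by positivity) ?_ hθ0.le
          have h5 : B ^ T ≤ B * N := by
            have : T = (T - 1) + 1 := by omega
            rw [this, pow_succ, mul_comm]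
            exact Nat.mul_le_mul_left _ h2
          exact_mod_cast h5
      _ = (B : ℝ) ^ θ * (N : ℝ) ^ θ := Real.mul_rpow hB0.le (Nat.cast_nonneg N)
  · have key : Summable (A.indicator fun n : ℕ => 1 / (n : ℝ)) := by
      set g : ℕ → ℝ := A.indicator fun n : ℕ => 1 / (n : ℝ) with hg
      have hg0 : ∀ n, 0 ≤ g n := fun n => Set.indicator_nonneg (fun m _ => by positivity) n
      set ρ : ℝ := ((B : ℝ) - 1) / B with hρ
      have hρ0 : 0 ≤ ρ := div_nonneg (by linarith) hB0.le
      have hρ1 : ρ < 1 := by rw [hρ, div_lt_one hB0]; linarith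
      have hpow : ∀ T : ℕ, ∑ i ∈ range (B ^ T), g i ≤
          ((B : ℝ) - 1) * ∑ t ∈ range T, ρ ^ t := by
        intro T
        induction T with
        | zero =>
          rw [pow_zero, sum_range_one, range_zero, sum_empty, mul_zero, hg]
          by_cases h0 : (0 : ℕ) ∈ A
          · rw [Set.indicator_of_mem h0]; simp
          · rw [Set.indicator_of_notMem h0]
        | succ T ih =>
          have hle : B ^ T ≤ B ^ (T + 1) := Nat.pow_le_pow_right (by omega) (by omega)
          rw [← sum_range_add_sum_Ico _ hle, sum_range_succ, mul_add]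
          refine add_le_add ih ?_
          have hBT : (0 : ℝ) < (B : ℝ) ^ T := by positivity
          have h1 : ∀ i ∈ Ico (B ^ T) (B ^ (T + 1)), g i ≤
              if i ∈ FT B v (T + 1) then 1 / (B : ℝ) ^ T else 0 := by
            intro i hi
            have hi' := mem_Ico.1 hi
            by_cases hiA : i ∈ A
            · have hF : i ∈ FT B v (T + 1) := mem_filter.2 ⟨mem_range.2 hi'.2, hA i hiA⟩
              rw [if_pos hF, hg, Set.indicator_of_mem hiA]
              have h2 : (B : ℝ) ^ T ≤ i := by exact_mod_cast hi'.1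
              exact one_div_le_one_div_of_le hBT h2
            · rw [hg, Set.indicator_of_notMem hiA]
              split_ifs
              · positivity
              · exact le_rfl
          calc ∑ i ∈ Ico (B ^ T) (B ^ (T + 1)), g i
              ≤ ∑ i ∈ Ico (B ^ T) (B ^ (T + 1)),
                  if i ∈ FT B v (T + 1) then 1 / (B : ℝ) ^ T else 0 := sum_le_sum h1
            _ = ∑ i ∈ (Ico (B ^ T) (B ^ (T + 1))).filter (· ∈ FT B v (T + 1)),
                  1 / (B : ℝ) ^ T := (sum_filter _ _).symm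
            _ = (((Ico (B ^ T) (B ^ (T + 1))).filter (· ∈ FT B v (T + 1))).card : ℝ) *
                  (1 / (B : ℝ) ^ T) := by rw [sum_const, nsmul_eq_mul]
            _ ≤ ((B : ℝ) - 1) ^ (T + 1) * (1 / (B : ℝ) ^ T) := by
                refine mul_le_mul_of_nonneg_right ?_ (by positivity)
                have h3 : ((Ico (B ^ T) (B ^ (T + 1))).filter (· ∈ FT B v (T + 1))).card ≤
                    (FT B v (T + 1)).card :=
                  card_le_card fun x hx => (mem_filter.1 hx).2
                calc ((((Ico (B ^ T) (B ^ (T + 1))).filter (· ∈ FT B v (T + 1))).card : ℕ) : ℝ)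
                    ≤ ((FT B v (T + 1)).card : ℝ) := by exact_mod_cast h3
                  _ ≤ (((B - 1) ^ (T + 1) : ℕ) : ℝ) := by exact_mod_cast card_FT hB hv (T + 1)
                  _ = ((B : ℝ) - 1) ^ (T + 1) := by rw [Nat.cast_pow, hB1]
            _ = ((B : ℝ) - 1) * ρ ^ T := by
                rw [hρ, div_pow, pow_succ]
                ring
      have hgeo : ∀ T : ℕ, ∑ t ∈ range T, ρ ^ t ≤ (1 - ρ)⁻¹ := by
        intro T
        have h1 := (summable_geometric_of_lt_one hρ0 hρ1).sum_le_tsum (range T)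
          (fun i _ => pow_nonneg hρ0 i)
        rwa [tsum_geometric_of_lt_one hρ0 hρ1] at h1
      refine summable_of_sum_range_le (c := ((B : ℝ) - 1) * (1 - ρ)⁻¹) hg0 fun n => ?_
      have hn : n ≤ B ^ n := (Nat.lt_pow_self (by omega)).le
      calc ∑ i ∈ range n, g i ≤ ∑ i ∈ range (B ^ n), g i :=
            sum_le_sum_of_subset_of_nonneg (range_subset_range.2 hn) fun i _ _ => hg0 i
        _ ≤ ((B : ℝ) - 1) * ∑ t ∈ range n, ρ ^ t := hpow n
        _ ≤ _ := mul_le_mul_of_nonneg_left (hgeo n) (by linarith)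
    exact (summable_subtype_iff_indicator (f := fun n : ℕ => 1 / (n : ℝ)) (s := A)).2 key

end Vale.Agent.P057.R3.H175
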